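import Vale.Agent.P321.Expect

namespace Vale.Agent.P321

open scoped NNReal ENNReal

/-- number of occurrences of `s` as a scattered subword (subsequence) of `x` -/
def occ : List Bool → List Bool → ℕ
  | _, [] => 1
  | [], _ :: _ => 0
  | b :: x, c :: s => occ x (c :: s) + if b = c then occ x s else 0

@[simp] lemma occ_nil_right (x : List Bool) : occ x [] = 1 := by
  cases x <;> rfl

@[simp] lemma occ_nil_cons (c : Bool) (s : List Bool) : occ [] (c :: s) = 0 := rfl

lemma occ_cons_cons (b c : Bool) (x s : List Bool) :
    occ (b :: x) (c :: s) = occ x (c :: s) + if b = c then occ x s else 0 := rfl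

lemma occ_eq_zero_of_length_lt (x s : List Bool) (h : x.length < s.length) : occ x s = 0 := by
  induction x generalizing s with
  | nil =>
    cases s with
    | nil => simp at h
    | cons c s => rfl
  | cons b x ih =>
    cases s with
    | nil => simp at h
    | cons c s =>
      rw [occ_cons_cons, ih (c :: s) (by simp at h ⊢; omega), ih s (by simp at h ⊢; omega)]
      simp

lemma occ_append (a b s : List Bool) :
    occ (a ++ b) s = ∑ i ∈ Finset.range (s.length + 1), occ a (s.take i) * occ b (s.drop i) := by
  induction a generalizing s with
  | nil =>
    rw [Finset.sum_range_succ']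
    simp only [List.nil_append, List.take_zero, occ_nil_right, List.drop_zero, one_mul]
    rw [Finset.sum_eq_zero]
    · simp
    · intro i hi
      cases s with
      | nil => simp at hi
      | cons c s => simp
  | cons d a ih =>
    cases s with
    | nil => simp
    | cons c s =>
      rw [List.cons_append, occ_cons_cons, ih (c :: s), ih s]
      rw [Finset.sum_range_succ' _ ((c :: s).length), Finset.sum_range_succ' _ ((c :: s).length)]
      simp only [List.take_succ_cons, List.drop_succ_cons, List.take_zero, List.drop_zero,
        occ_nil_right, one_mul, occ_cons_cons, List.length_cons, add_mul]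
      rw [Finset.sum_add_distrib]
      by_cases hdc : d = c
      · simp only [hdc, if_true]
        ring
      · simp only [hdc, if_false, zero_mul, Finset.sum_const_zero]
        ring

/-- the pair of Thue-Morse words of length `2 ^ k` -/
def tm : ℕ → List Bool × List Bool
  | 0 => ([false], [true])
  | k + 1 => ((tm k).1 ++ (tm k).2, (tm k).2 ++ (tm k).1)

lemma tm_length (k : ℕ) : (tm k).1.length = 2 ^ k ∧ (tm k).2.length = 2 ^ k := by
  induction k with
  | zero => simp [tm]
  | succ k ih =>
    simp only [tm, List.length_append, ih.1, ih.2]
    constructor <;> ring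

lemma tm_ne (k : ℕ) : (tm k).1 ≠ (tm k).2 := by
  induction k with
  | zero => simp [tm]
  | succ k ih =>
    simp only [tm]
    intro h
    have := List.append_inj h (by rw [(tm_length k).1, (tm_length k).2])
    exact ih this.1

lemma tm_occ (k : ℕ) (s : List Bool) (hs : s.length ≤ k) : occ (tm k).1 s = occ (tm k).2 s := by
  induction k generalizing s with
  | zero =>
    have : s = [] := List.eq_nil_of_length_eq_zero (by omega)
    simp [this]
  | succ k ih =>
    simp only [tm]
    rw [occ_append, occ_append]
    rcases Nat.eq_zero_or_pos s.length with h0 | hpos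
    · have : s = [] := List.eq_nil_of_length_eq_zero h0
      simp [this]
    · obtain ⟨L, hL⟩ : ∃ L, s.length = L + 1 := ⟨s.length - 1, by omega⟩
      have hsplit : ∀ g : ℕ → ℕ, ∑ i ∈ Finset.range (L + 1 + 1), g i
          = g 0 + ∑ i ∈ Finset.range L, g (i + 1) + g (L + 1) := by
        intro g
        rw [Finset.sum_range_succ, Finset.sum_range_succ']
        ring
      rw [hL, hsplit, hsplit]
      have e1 : s.take (L + 1) = s := by rw [← hL]; exact List.take_length
      have e2 : s.drop (L + 1) = [] := by rw [← hL]; exact List.drop_length
      simp only [e1, e2, List.take_zero, List.drop_zero, occ_nil_right, one_mul, mul_one]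
      have hmid : ∑ i ∈ Finset.range L, occ (tm k).1 (s.take (i + 1)) * occ (tm k).2 (s.drop (i + 1))
          = ∑ i ∈ Finset.range L, occ (tm k).2 (s.take (i + 1)) * occ (tm k).1 (s.drop (i + 1)) := by
        refine Finset.sum_congr rfl ?_
        intro i hi
        have hi' : i < L := Finset.mem_range.1 hi
        rw [ih (s.take (i + 1)) (by rw [List.length_take]; omega),
          ih (s.drop (i + 1)) (by rw [List.length_drop]; omega)]
      rw [hmid]
      ring

end Vale.Agent.P321
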