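import Mathlib

namespace Vale.Agent.P321

open scoped NNReal ENNReal

/-- The law of a trace of the binary string `x` through the deletion channel: each bit is deleted
independently with probability `q`, the surviving bits are concatenated in their original order. -/
noncomputable def traceLaw (q : ℝ≥0) (hq : q ≤ 1) : List Bool → PMF (List Bool)
  | [] => PMF.pure []
  | b :: x => (PMF.bernoulli q hq).bind fun del =>
      (traceLaw q hq x).map fun t => if del then t else b :: t

/-- The law of a sequence of `m` independent traces of `x`. -/
noncomputable def tracesLaw (q : ℝ≥0) (hq : q ≤ 1) (x : List Bool) : ℕ → PMF (List (List Bool))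
  | 0 => PMF.pure []
  | m + 1 => (traceLaw q hq x).bind fun t => (tracesLaw q hq x m).map fun ts => t :: ts

/-- `m` traces suffice for worst-case reconstruction of strings of length `n` at deletion
probability `q`: some (possibly randomized) estimator outputs `x` with probability at least `2/3`
from `m` independent traces of `x`, for every `x` of length `n`. -/
def Reconstructs (q : ℝ≥0) (hq : q ≤ 1) (n m : ℕ) : Prop :=
  ∃ est : List (List Bool) → PMF (List Bool), ∀ x : List Bool, x.length = n →
    (2 / 3 : ℝ≥0∞) ≤ ((tracesLaw q hq x m).bind est) x

end Vale.Agent.P321
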