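import Vale.Agent.P321.Defs

namespace Vale.Agent.P321

open scoped NNReal ENNReal

/-- expectation of a nonnegative function -/
noncomputable def E {α : Type*} (μ : PMF α) (f : α → ℝ≥0∞) : ℝ≥0∞ := ∑' a, μ a * f a

variable {α β : Type*}

lemma E_pure (a : α) (f : α → ℝ≥0∞) : E (PMF.pure a) f = f a := by
  classical
  unfold E
  rw [tsum_eq_single a]
  · simp
  · intro b hb
    simp [PMF.pure_apply, hb]

lemma E_bind (μ : PMF α) (g : α → PMF β) (f : β → ℝ≥0∞) :
    E (μ.bind g) f = E μ (fun a => E (g a) f) := by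
  unfold E
  simp only [PMF.bind_apply]
  simp_rw [← ENNReal.tsum_mul_right, ← ENNReal.tsum_mul_left]
  rw [ENNReal.tsum_comm]
  simp_rw [mul_assoc]

lemma E_map (μ : PMF α) (h : α → β) (f : β → ℝ≥0∞) : E (μ.map h) f = E μ (f ∘ h) := by
  rw [← PMF.bind_pure_comp, E_bind]
  simp [E_pure, Function.comp_def]

lemma E_bernoulli (q : ℝ≥0) (hq : q ≤ 1) (f : Bool → ℝ≥0∞) :
    E (PMF.bernoulli q hq) f = q * f true + (1 - q : ℝ≥0) * f false := by
  unfold E
  rw [tsum_bool]
  simp [PMF.bernoulli_apply, add_comm]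

lemma E_mono (μ : PMF α) {f g : α → ℝ≥0∞} (h : ∀ a, f a ≤ g a) : E μ f ≤ E μ g :=
  ENNReal.tsum_le_tsum fun a => by gcongr; exact h a

lemma E_add (μ : PMF α) (f g : α → ℝ≥0∞) : E μ (fun a => f a + g a) = E μ f + E μ g := by
  unfold E
  rw [← ENNReal.tsum_add]
  simp_rw [mul_add]

lemma E_const (μ : PMF α) (c : ℝ≥0∞) : E μ (fun _ => c) = c := by
  unfold E
  rw [ENNReal.tsum_mul_right, PMF.tsum_coe, one_mul]

lemma E_const_mul (μ : PMF α) (c : ℝ≥0∞) (f : α → ℝ≥0∞) : E μ (fun a => c * f a) = c * E μ f := by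
  unfold E
  rw [← ENNReal.tsum_mul_left]
  congr 1
  ext a
  ring

lemma traceLaw_cons (q : ℝ≥0) (hq : q ≤ 1) (b : Bool) (x : List Bool) (f : List Bool → ℝ≥0∞) :
    E (traceLaw q hq (b :: x)) f
      = q * E (traceLaw q hq x) f + (1 - q : ℝ≥0) * E (traceLaw q hq x) (fun t => f (b :: t)) := by
  rw [traceLaw, E_bind, E_bernoulli]
  simp [E_map, Function.comp_def]

lemma traceLaw_nil (q : ℝ≥0) (hq : q ≤ 1) (f : List Bool → ℝ≥0∞) :
    E (traceLaw q hq []) f = f [] := by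
  rw [traceLaw, E_pure]

lemma traceLaw_append (q : ℝ≥0) (hq : q ≤ 1) (a b : List Bool) (f : List Bool → ℝ≥0∞) :
    E (traceLaw q hq (a ++ b)) f
      = E (traceLaw q hq a) (fun t => E (traceLaw q hq b) (fun t' => f (t ++ t'))) := by
  induction a generalizing f with
  | nil => simp [traceLaw_nil]
  | cons c a ih =>
    rw [List.cons_append, traceLaw_cons, traceLaw_cons, ih, ih]
    simp

end Vale.Agent.P321
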