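import Vale.Agent.P321.Hybrid

namespace Vale.Agent.P321

open scoped NNReal ENNReal
open Filter

theorem lower_bound_real (q : ℝ≥0) (hq : q ≤ 1) (k m : ℕ) (h : Reconstructs q hq (2 ^ k) m) :
    (1 : ℝ) ≤ 3 * m * ((2 ^ k).choose (k + 1) : ℝ) * (1 - (q : ℝ)) ^ (k + 1) := by
  have h1 := lower_bound_ennreal q hq k m h
  set y : ℝ≥0 := (m : ℝ≥0) * (((2 ^ k).choose (k + 1) : ℝ≥0) * (1 - q) ^ (k + 1)) with hy
  have e1 : (m : ℝ≥0∞) * (((2 ^ k).choose (k + 1) : ℝ≥0∞) * ((1 - q : ℝ≥0) : ℝ≥0∞) ^ (k + 1))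
      = (y : ℝ≥0∞) := by
    rw [hy]; push_cast; rfl
  have e2 : (1 / 3 : ℝ≥0∞) = ((1 / 3 : ℝ≥0) : ℝ≥0∞) := by
    rw [ENNReal.coe_div (by norm_num)]; simp
  rw [e1, e2, ENNReal.coe_le_coe] at h1
  have h2 : ((1 / 3 : ℝ≥0) : ℝ) ≤ (y : ℝ) := by exact_mod_cast h1
  rw [hy] at h2
  push_cast at h2
  rw [NNReal.coe_sub hq] at h2
  simp only [NNReal.coe_one] at h2
  linarith

theorem no_joint_polynomial (C : ℕ) :
    ∃ (n : ℕ) (q : ℝ≥0) (hq : q ≤ 1), 0 < q ∧ q < 1 ∧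
      ∀ m : ℕ, Reconstructs q hq n m → ((n : ℝ) / (1 - (q : ℝ))) ^ C < m := by
  have htend := FloorSemiring.tendsto_pow_div_factorial_atTop ((4 : ℝ) ^ C)
  have hev : ∀ᶠ k : ℕ in atTop, ((4 : ℝ) ^ C) ^ k / (k.factorial : ℝ) < 1 / 3 :=
    htend.eventually (gt_mem_nhds (by norm_num))
  obtain ⟨k, hk, hk1⟩ := (hev.and (eventually_ge_atTop 1)).exists
  set n : ℕ := 2 ^ k with hn
  have hn2 : 2 ≤ n := by
    calc 2 = 2 ^ 1 := by norm_num
      _ ≤ 2 ^ k := Nat.pow_le_pow_right (by norm_num) hk1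
  have hnpos : (0 : ℝ) < n := by positivity
  have hinv_le : (n : ℝ≥0)⁻¹ ≤ 1 := by
    apply inv_le_one_of_one_le₀
    exact_mod_cast (by omega : 1 ≤ n)
  refine ⟨n, 1 - (n : ℝ≥0)⁻¹, tsub_le_self, ?_, ?_, ?_⟩
  · apply tsub_pos_of_lt
    apply inv_lt_one_of_one_lt₀
    exact_mod_cast (by omega : 1 < n)
  · apply tsub_lt_self (by norm_num)
    positivity
  · intro m hm
    have h1 := lower_bound_real _ _ k m hm
    have e1 : (1 : ℝ) - ((1 - (n : ℝ≥0)⁻¹ : ℝ≥0) : ℝ) = (n : ℝ)⁻¹ := by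
      rw [NNReal.coe_sub hinv_le]; simp
    rw [e1] at h1 ⊢
    have hchoose : ((2 ^ k).choose (k + 1) : ℝ) ≤ (n : ℝ) ^ (k + 1) / ((k + 1).factorial : ℝ) := by
      have := Nat.choose_le_pow_div (α := ℝ) (k + 1) (2 ^ k)
      simpa [hn] using this
    have hfpos : (0 : ℝ) < ((k + 1).factorial : ℝ) := by positivity
    have h2 : (1 : ℝ) ≤ 3 * m / ((k + 1).factorial : ℝ) := by
      calc (1 : ℝ) ≤ 3 * m * ((2 ^ k).choose (k + 1) : ℝ) * ((n : ℝ)⁻¹) ^ (k + 1) := h1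
        _ ≤ 3 * m * ((n : ℝ) ^ (k + 1) / ((k + 1).factorial : ℝ)) * ((n : ℝ)⁻¹) ^ (k + 1) := by
            gcongr
        _ = 3 * m / ((k + 1).factorial : ℝ) := by
            rw [inv_pow]
            field_simp
    have h3 : ((k + 1).factorial : ℝ) ≤ 3 * m := by
      rwa [le_div_iff₀ hfpos, one_mul] at h2
    have h4 : ((4 : ℝ) ^ C) ^ k < (k.factorial : ℝ) / 3 := by
      have hkpos : (0 : ℝ) < (k.factorial : ℝ) := by positivity
      rw [div_lt_iff₀ hkpos] at hk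
      linarith
    have h5 : (k.factorial : ℝ) ≤ ((k + 1).factorial : ℝ) := by
      exact_mod_cast Nat.factorial_le (Nat.le_succ k)
    have e2 : ((n : ℝ) / (n : ℝ)⁻¹) ^ C = ((4 : ℝ) ^ C) ^ k := by
      rw [div_inv_eq_mul, hn]
      push_cast
      rw [← pow_two, ← pow_mul, ← pow_mul, ← pow_mul]
      rw [show (4 : ℝ) = 2 ^ 2 by norm_num, ← pow_mul]
      congr 1
      ring
    rw [e2]
    linarith

end Vale.Agent.P321
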