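import Vale.Agent.P321.Law

namespace Vale.Agent.P321

open scoped NNReal ENNReal

lemma tracesLaw_succ (q : ℝ≥0) (hq : q ≤ 1) (x : List Bool) (m : ℕ)
    (F : List (List Bool) → ℝ≥0∞) :
    E (tracesLaw q hq x (m + 1)) F
      = E (traceLaw q hq x) (fun t => E (tracesLaw q hq x m) (fun ts => F (t :: ts))) := by
  rw [tracesLaw, E_bind]
  simp [E_map, Function.comp_def]

lemma hybrid (q : ℝ≥0) (hq : q ≤ 1) (u v : List Bool) (k : ℕ) (ε : ℝ≥0∞)
    (hagree : ∀ s : List Bool, s.length ≤ k → traceLaw q hq u s = traceLaw q hq v s)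
    (htail : E (traceLaw q hq v) (fun t => if k + 1 ≤ t.length then 1 else 0) ≤ ε)
    (m : ℕ) (F G : List (List Bool) → ℝ≥0∞) (hFG : ∀ ts, F ts + G ts ≤ 1) :
    E (tracesLaw q hq u m) F + E (tracesLaw q hq v m) G ≤ 1 + m * ε := by
  induction m generalizing F G with
  | zero =>
    simp only [tracesLaw, E_pure]
    simpa using hFG []
  | succ m ih =>
    rw [tracesLaw_succ, tracesLaw_succ]
    set A : List Bool → ℝ≥0∞ := fun t => E (tracesLaw q hq u m) (fun ts => F (t :: ts)) with hA
    set B : List Bool → ℝ≥0∞ := fun t => E (tracesLaw q hq v m) (fun ts => G (t :: ts)) with hB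
    have hAB : ∀ t, A t + B t ≤ 1 + m * ε := fun t => ih _ _ (fun ts => hFG (t :: ts))
    have hB1 : ∀ t, B t ≤ 1 := by
      intro t
      calc B t ≤ E (tracesLaw q hq v m) (fun _ => 1) :=
            E_mono _ (fun ts => le_trans le_add_self (hFG (t :: ts)))
        _ = 1 := E_const _ _
    have h1 : E (traceLaw q hq v) B ≤ E (traceLaw q hq u) B + ε := by
      calc E (traceLaw q hq v) B
          ≤ ∑' s, (traceLaw q hq u s * B s
              + traceLaw q hq v s * (if k + 1 ≤ s.length then 1 else 0)) := by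
            refine ENNReal.tsum_le_tsum ?_
            intro s
            by_cases hs : k + 1 ≤ s.length
            · simp only [hs, if_true, mul_one]
              calc traceLaw q hq v s * B s ≤ traceLaw q hq v s * 1 := by gcongr; exact hB1 s
                _ ≤ _ := by rw [mul_one]; exact le_add_self
            · simp only [hs, if_false, mul_zero, add_zero]
              rw [hagree s (by omega)]
        _ = E (traceLaw q hq u) B
              + E (traceLaw q hq v) (fun t => if k + 1 ≤ t.length then 1 else 0) := by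
            rw [ENNReal.tsum_add]; rfl
        _ ≤ _ := by gcongr
    calc E (traceLaw q hq u) A + E (traceLaw q hq v) B
        ≤ E (traceLaw q hq u) A + (E (traceLaw q hq u) B + ε) := by gcongr
      _ = E (traceLaw q hq u) (fun t => A t + B t) + ε := by rw [E_add, add_assoc]
      _ ≤ E (traceLaw q hq u) (fun _ => 1 + m * ε) + ε := by
          gcongr
          exact E_mono _ hAB
      _ = 1 + (m + 1 : ℕ) * ε := by
          rw [E_const]
          push_cast
          ring

theorem lower_bound_ennreal (q : ℝ≥0) (hq : q ≤ 1) (k m : ℕ) (h : Reconstructs q hq (2 ^ k) m) :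
    (1 / 3 : ℝ≥0∞) ≤ m * (((2 ^ k).choose (k + 1) : ℝ≥0∞) * ((1 - q : ℝ≥0) : ℝ≥0∞) ^ (k + 1)) := by
  obtain ⟨est, hest⟩ := h
  set u := (tm k).1
  set v := (tm k).2
  have hu := hest u (tm_length k).1
  have hv := hest v (tm_length k).2
  have huv : u ≠ v := tm_ne k
  have hagree : ∀ s : List Bool, s.length ≤ k → traceLaw q hq u s = traceLaw q hq v s := by
    intro s hs
    rw [traceLaw_apply, traceLaw_apply, tm_occ k s hs, (tm_length k).1, (tm_length k).2]
  have htail := tail_bound q hq v (k + 1)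
  rw [(tm_length k).2] at htail
  have hyb := hybrid q hq u v k _ hagree htail m (fun ts => est ts u) (fun ts => est ts v) (by
    intro ts
    have := ENNReal.sum_le_tsum (f := est ts) ({u, v} : Finset (List Bool))
    rw [Finset.sum_pair huv, PMF.tsum_coe] at this
    exact this)
  have hsum : (2 / 3 : ℝ≥0∞) + 2 / 3 ≤ 1 + m * (((2 ^ k).choose (k + 1) : ℝ≥0∞)
      * ((1 - q : ℝ≥0) : ℝ≥0∞) ^ (k + 1)) :=
    le_trans (add_le_add hu hv) hyb
  have e : (2 / 3 : ℝ≥0∞) + 2 / 3 = 1 + 1 / 3 := by
    rw [ENNReal.div_add_div_same]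
    have h3 : (3 : ℝ≥0∞) ≠ 0 := by norm_num
    have h3' : (3 : ℝ≥0∞) ≠ ∞ := by norm_num
    rw [show (1 : ℝ≥0∞) + 1 / 3 = 3 / 3 + 1 / 3 by rw [ENNReal.div_self h3 h3'],
      ENNReal.div_add_div_same]
    norm_num
  rw [e] at hsum
  exact (ENNReal.add_le_add_iff_left ENNReal.one_ne_top).1 hsum

end Vale.Agent.P321
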