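import Vale.Agent.P321.Deck

namespace Vale.Agent.P321

open scoped NNReal ENNReal

lemma apply_eq_E {α : Type*} [DecidableEq α] (μ : PMF α) (a : α) :
    μ a = E μ (fun b => if b = a then 1 else 0) := by
  unfold E
  rw [tsum_eq_single a]
  · simp
  · intro b hb
    simp [hb]

lemma traceLaw_apply (q : ℝ≥0) (hq : q ≤ 1) (x s : List Bool) :
    traceLaw q hq x s
      = (occ x s : ℝ≥0∞) * ((1 - q : ℝ≥0) : ℝ≥0∞) ^ s.length * (q : ℝ≥0∞) ^ (x.length - s.length) := by
  induction x generalizing s with
  | nil =>
    cases s with
    | nil => simp [traceLaw]
    | cons c s => simp [traceLaw]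
  | cons b x ih =>
    rw [apply_eq_E, traceLaw_cons, ← apply_eq_E]
    cases s with
    | nil =>
      rw [ih]
      have : E (traceLaw q hq x) (fun t => if b :: t = [] then (1 : ℝ≥0∞) else 0) = 0 := by
        simp [E]
      rw [this]
      simp [pow_succ]
      ring
    | cons c s =>
      have h2 : E (traceLaw q hq x) (fun t => if b :: t = c :: s then (1 : ℝ≥0∞) else 0)
          = if b = c then traceLaw q hq x s else 0 := by
        by_cases hbc : b = c
        · simp only [hbc, if_true, List.cons.injEq, true_and]
          rw [← apply_eq_E]
        · simp [hbc, E]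
      rw [h2, ih, occ_cons_cons]
      by_cases hlen : s.length + 1 ≤ x.length
      · have e1 : (b :: x).length - (c :: s).length = x.length - s.length := by simp
        have e2 : x.length - s.length = (x.length - (c :: s).length) + 1 := by
          simp only [List.length_cons]; omega
        rw [e1, e2]
        by_cases hbc : b = c
        · simp only [hbc, if_true]
          rw [ih, e2]
          simp only [List.length_cons]
          push_cast
          ring
        · simp only [hbc, if_false]
          simp only [List.length_cons]
          push_cast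
          ring
      · have h0 : occ x (c :: s) = 0 := occ_eq_zero_of_length_lt _ _ (by simp; omega)
        rw [h0]
        by_cases hbc : b = c
        · simp only [hbc, if_true]
          rw [ih]
          simp only [List.length_cons, Nat.add_sub_add_right]
          push_cast
          ring
        · simp [hbc]

lemma tail_bound (q : ℝ≥0) (hq : q ≤ 1) (x : List Bool) (j : ℕ) :
    E (traceLaw q hq x) (fun t => if j ≤ t.length then 1 else 0)
      ≤ (x.length.choose j : ℝ≥0∞) * ((1 - q : ℝ≥0) : ℝ≥0∞) ^ j := by
  induction x generalizing j with
  | nil =>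
    rw [traceLaw_nil]
    cases j with
    | zero => simp
    | succ j => simp
  | cons b x ih =>
    rw [traceLaw_cons]
    cases j with
    | zero =>
      simp only [Nat.zero_le, if_true, E_const, Nat.choose_zero_right, pow_zero]
      rw [mul_one, mul_one, ← ENNReal.coe_add, add_tsub_cancel_of_le hq]
      simp
    | succ j =>
      have h1 := ih (j + 1)
      have h2 := ih j
      have e : (fun t : List Bool => if j + 1 ≤ (b :: t).length then (1 : ℝ≥0∞) else 0)
          = fun t => if j ≤ t.length then 1 else 0 := by
        ext t; simp
      rw [e]
      have hq' : (q : ℝ≥0∞) ≤ 1 := by exact_mod_cast hq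
      calc _ ≤ 1 * ((x.length.choose (j + 1) : ℝ≥0∞) * ((1 - q : ℝ≥0) : ℝ≥0∞) ^ (j + 1))
            + ((1 - q : ℝ≥0) : ℝ≥0∞) * ((x.length.choose j : ℝ≥0∞) * ((1 - q : ℝ≥0) : ℝ≥0∞) ^ j) := by
            gcongr
        _ = _ := by
            rw [List.length_cons, Nat.choose_succ_succ]
            push_cast
            ring

end Vale.Agent.P321
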